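import Vale.Agent.P298L47.Ex
import Vale.Agent.P298.Main.Final

/-!
# P298: the Lê–Ramanujam problem for surfaces (`n = 3`), for the objects of the problem
-/

open Metric Set Vale.Agent.P298L47

namespace Vale.Agent.Results.P298.ALiteral

/-- (1) For `f` holomorphic near `0 ∈ ℂⁿ` the partial derivatives are holomorphic near `0`, and
`0` is an isolated critical point iff the Milnor number is positive and finite. (2) The sum
of squares has `μ = 1` and gives a `μ`-constant family. (3) **Every `μ`-constant family in `ℂ³` is topologically right-trivial**, any two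
of its members are topologically right-equivalent, and the embedded topological type is
constant. -/
theorem result :
    (∀ (n : ℕ) (f : (Fin n → ℂ) → ℂ), f ∈ HolAt (Fin n → ℂ) →
      (∀ i, pder i f ∈ HolAt (Fin n → ℂ)) ∧
      (IsolatedCrit f ↔ 0 < milnor f ∧ milnor f < Cardinal.aleph0)) ∧
    (∀ n : ℕ, milnor (fun x : Fin n → ℂ => ∑ i, x i ^ 2) = 1 ∧
      ∀ r : ℝ, MuConstant r univ fun p : (Fin n → ℂ) × ℂ => ∑ i, p.1 i ^ 2) ∧
    ∀ r : ℝ, 0 < r → ∀ (W : Set ((Fin 3 → ℂ) × ℂ)) (F : (Fin 3 → ℂ) × ℂ → ℂ), MuConstant r W F →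
      RightTrivial r W F ∧ ∀ s ∈ ball (0 : ℂ) r, ∀ t ∈ ball (0 : ℂ) r, SameType W F s t := by
  refine ⟨fun n f hf => ⟨fun i => mem_holAt.2 (pder_an (mem_holAt.1 hf) i), isolated_iff hf⟩,
    fun n => ⟨milnor_sq, muConstant_sq⟩, fun r hr W F h => ?_⟩
  obtain ⟨μ, hμ⟩ := h.exists_mu hr
  obtain ⟨h1, h2, -⟩ := Vale.Agent.P298.Main.final hr h.hol' hμ
  exact ⟨rightTrivial_of hr h.isOpen h.axis h1, fun s hs t ht =>
    sameType_of h.isOpen (h.axis ⟨rfl, hs⟩) (h.axis ⟨rfl, ht⟩) (h2 s hs t ht)⟩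

end Vale.Agent.Results.P298.ALiteral
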